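import Vale.Agent.P221X.GR.Fil

/-!
# P221 / GR : the rings `O[[G]]` and `O[[G]] / T`
-/

noncomputable section

namespace Vale.Agent.P221X.GR

open PowerSeries

variable {p : ℕ} {F : Type} [Field F] {D : GD p F} {A : Type} [Ring A] [Algebra F A]

theorem rot_X (D : GD p F) : D.rot X = D.ζ • X := by
  ext n
  rw [D.rot_coeff, map_smul, coeff_X]
  split_ifs with h <;> simp [h]

theorem rot_pow (D : GD p F) (k : ℕ) (f) (n : ℕ) :
    coeff n ((D.rot ^ k) f) = (D.ζ ^ k) ^ n * coeff n f := by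
  induction k with
  | zero => simp
  | succ k ih => rw [pow_succ', AlgEquiv.mul_apply, D.rot_coeff, ih]; ring

theorem rotK_alg (D : GD p F) (f) : D.rotK (algebraMap (PowerSeries F) (KK F) f) =
    algebraMap (PowerSeries F) (KK F) (D.rot f) := KK.ext fun n => by
  rw [D.rotK_cf]
  rcases lt_or_ge n 0 with h | h
  · rw [KK.cf_algebraMap_neg _ h, KK.cf_algebraMap_neg _ h, mul_zero]
  · lift n to ℕ using h
    rw [KK.cf_algebraMap, KK.cf_algebraMap, D.rot_coeff, zpow_natCast]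

theorem actK_ψ (D : GD p F) (z) : D.actK D.ψ z = z :=
  RingHom.congr_fun (IsFractionRing.ringHom_ext (A := PowerSeries F)
    (f1 := (D.actK D.ψ : KK F →+* KK F)) (f2 := RingHom.id _) fun f => by
      simp [D.actK_alg, D.act_ψ]) z

theorem actK_cj (D : GD p F) (a z) : D.actK (D.cj a) (D.rotK z) = D.rotK (D.actK a z) :=
  RingHom.congr_fun (IsFractionRing.ringHom_ext (A := PowerSeries F)
    (f1 := (D.actK (D.cj a) : KK F →+* KK F).comp (D.rotK : KK F →+* KK F))
    (f2 := (D.rotK : KK F →+* KK F).comp (D.actK a : KK F →+* KK F)) fun f => by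
      simp [D.actK_alg, rotK_alg, D.act_cj]) z

namespace IW

variable (W : IW D A)

theorem mu_fil {a : ℕ} {s : A} (h : s ∈ W.Fil a) : W.mu s ∈ W.Fil a := fun n => by
  obtain ⟨t, h1, h2⟩ := h n
  refine ⟨W.mu t, ?_, map_sub W.mu s t ▸ W.mu_van _ _ _ h2⟩
  clear h2 h
  induction h1 with
  | top s => exact .top _
  | u => rw [W.mu_sc, rot_X, map_smul]; exact Submodule.smul_mem _ _ Fil0.u
  | odd l a ha => rw [map_sub, map_one, W.mu_gr]; exact .odd l _ (D.cj_mem _ a ha)
  | even l a ha => rw [map_sub, map_one, W.mu_gr]; exact .even l _ (D.cj_mem _ a ha)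
  | mul _ _ c ih ih' => rw [map_mul]; exact .mul ih ih' c
  | add _ _ ih ih' => rw [map_add]; exact .add ih ih'
  | zero a => rw [map_zero]; exact .zero a

theorem eq_zero_of_dense (hD : RowDEP D) (L : A →ₗ[F] A)
    (h : ∀ n, ∃ m, ∀ r ∈ W.Kr m m, L r ∈ W.Kr n n) (h' : ∀ f a, L (W.sc f * W.gr a) = 0) (s : A) :
    L s = 0 := W.sep _ fun n => (h n).elim fun _ e =>
  W.mem_of_dense hD (U := (W.Kr n n).comap L) e (fun f a => by simp [h']) s

theorem T_comm (hD : RowDEP D) (r : A) : (W.gr D.ψ - 1) * r = r * (W.gr D.ψ - 1) := by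
  refine sub_eq_zero.1 (W.eq_zero_of_dense hD (LinearMap.mulLeft F _ - LinearMap.mulRight F _)
    (fun n => ?_) (fun f a => ?_) r)
  · obtain ⟨m, e, h⟩ := W.exists_ts n n
    exact ⟨m, fun r hr => W.Kr_anti e le_rfl (sub_mem (h.left _ (W.Kr_anti le_rfl e hr))
      (h.right (W.Kr_anti le_rfl e hr) _))⟩
  · change (_ - 1) * _ - _ * (_ - 1) = (0 : A)
    rw [sub_mul, mul_sub, one_mul, mul_one, ← mul_assoc, W.skew, D.act_ψ, AlgEquiv.one_apply,
      mul_assoc, mul_assoc, ← map_mul, ← map_mul, D.ψ_comm, sub_self]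

theorem mu_pow (hD : RowDEP D) (r : A) : (W.mu ^ (p + 1)) r = r := by
  have h1 : ∀ k n r, r ∈ W.Kr n n → (W.mu ^ k) r ∈ W.Kr n n := fun k n r hr => by
    induction k with
    | zero => exact hr
    | succ k ih => rw [pow_succ']; exact W.mu_van _ _ _ ih
  have h2 : ∀ k f a, (W.mu ^ k) (W.sc f * W.gr a) = W.sc ((D.rot ^ k) f) * W.gr ((D.cj ^ k) a) :=
    fun k f a => by
      induction k with
      | zero => rfl
      | succ k ih =>
        rw [pow_succ', AlgEquiv.mul_apply, ih, map_mul, W.mu_sc, W.mu_gr, pow_succ', pow_succ']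
        rfl
  refine sub_eq_zero.1 (W.eq_zero_of_dense hD ((W.mu ^ (p + 1)).toLinearMap - LinearMap.id)
    (fun n => ⟨n, fun r hr => sub_mem (h1 _ n r hr) hr⟩) (fun f a => ?_) r)
  change (W.mu ^ (p + 1)) _ - _ = (0 : A)
  rw [h2, D.cj_pow, show (D.rot ^ (p + 1)) f = f from PowerSeries.ext fun n => by
    rw [rot_pow, D.ζ_prim.pow_eq_one, one_pow, one_mul], LinearMap.id_apply, sub_self]

theorem op_mu (hD : RowDEP D) (r : A) (z) : W.op (W.mu r) (D.rotK z) = D.rotK (W.op r z) := by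
  refine sub_eq_zero.1 (KK.eq_zero_of_ge fun k => ?_)
  obtain ⟨n, e⟩ := W.op_cont z k
  obtain ⟨m, e'⟩ := W.op_cont (D.rotK z) k
  refine W.mem_of_dense hD (l := max n m) (n := max n m) (U := (KK.ge k).comap
    (LinearMap.applyₗ (D.rotK z) ∘ₗ W.op.toLinearMap ∘ₗ W.mu.toLinearMap -
      D.rotK.toLinearMap ∘ₗ LinearMap.applyₗ z ∘ₗ W.op.toLinearMap)) (fun r hr => ?_)
    (fun f a => ?_) r
  · refine sub_mem (e' _ (W.mu_van _ _ _ (W.Kr_anti (le_max_right n m) (le_max_right n m) hr)))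
      fun i hi => ?_
    change KK.cf i (D.rotK (W.op r z)) = 0
    rw [D.rotK_cf, e _ (W.Kr_anti (le_max_left n m) (le_max_left n m) hr) i hi, mul_zero]
  · change W.op (W.mu _) (D.rotK z) - D.rotK (W.op _ z) ∈ KK.ge k
    simp [W.mu_sc, W.mu_gr, W.op_sc, W.op_gr, actK_cj, rotK_alg]

theorem gain_word (hD : RowDEP D) (l : List (Option (Fin 4))) :
    Gain (W.op (l.map W.gen).prod) l.length ∧ (l.map wt5).sum ≤ 4 * l.length := by
  have h1 : ∀ a, Gain (W.op (W.gr a - 1)) 1 := fun a m z hz => by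
    simpa [W.op_gr] using hD.gain a 1 (D.dep_one a) m z hz
  have h2 : Gain (W.op (W.sc X)) 1 := fun m z hz => by
    rw [W.op_sc, KK.algebraMap_X, add_comm]
    exact KK.mul_mem_ge (KK.uz_mem_ge 1) hz
  have h3 : ∀ i, Gain (W.op (W.gen i)) 1 ∧ wt5 i ≤ 4 := by
    rintro (_ | i)
    · exact ⟨h1 _, by decide⟩
    · fin_cases i
      exacts [⟨h2, by decide⟩, ⟨h1 _, by decide⟩, ⟨h1 _, by decide⟩, ⟨h1 _, by decide⟩]
  induction l with
  | nil => exact ⟨fun m z hz => by simpa using hz, le_rfl⟩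
  | cons i l ih =>
    refine ⟨fun m z hz => ?_, by have := ih.2; have := (h3 i).2; simp; omega⟩
    simpa [add_assoc] using (h3 i).1 _ _ (ih.1 m z hz)

variable [Fact p.Prime] [CharP F p]

theorem gain (hp : 5 ≤ p) (hD : RowDEP D) {n : ℕ} {r : A} (hr : r ∈ W.Fil (4 * n)) :
    Gain (W.op r) n := fun m z hz => by
  obtain ⟨k, e⟩ := W.op_cont z (m + n)
  obtain ⟨b, e'⟩ := W.le_Kr hD k k
  obtain ⟨φ, h1, h2⟩ := approx (W.span hp hD) hr b
  have h3 := ev_mem (x := W.gen) (φ := φ)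
    (U := (KK.ge (m + n)).comap (LinearMap.applyₗ z ∘ₗ W.op.toLinearMap)) fun ν hν => by
      obtain ⟨h4, h5⟩ := W.gain_word hD (lst ν)
      have h6 := h1 ν hν
      rw [← sum_lst] at h6
      exact KK.ge_mono (by omega) (h4 m z hz)
  simpa using add_mem (e _ (e' (W.mf.anti (Nat.le_add_left _ _) h2))) h3

/-- **Block GR** for an arbitrary model. -/
theorem out (hp : 5 ≤ p) (hD : RowDEP D) : Out W := by
  obtain ⟨Φ, hΦ, hs⟩ := W.fring hp hD
  have hm : ∀ {a s}, s ∈ W.Fil a → s ∈ Φ.fil a := fun h => hΦ ▸ h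
  have hm' : ∀ {a s}, s ∈ Φ.fil a → s ∈ W.Fil a := fun h => hΦ ▸ h
  have hg : ∀ i, W.gen i ∈ Φ.fil (wt5 i) := fun i => hm ((W.gens hp).mem i)
  have h0 : ∀ i, Φ.sym (wt5 i) (W.gen i) ≠ 0 := fun i => hs i ▸ MvPolynomial.X_ne_zero i
  let I : Ideal A := Ideal.span {W.gr D.ψ - 1}
  have hI : ∀ r, r ∈ I ↔ ∃ s, r = (W.gr D.ψ - 1) * s := fun r => by
    simp only [I, Ideal.mem_span_singleton', W.T_comm hD, eq_comm]
  have : I.IsTwoSided := ⟨fun b h => ((hI _).1 h).elim fun s e =>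
    (hI _).2 ⟨s * b, by rw [e, mul_assoc]⟩⟩
  obtain ⟨Ψ, hΨ, hs'⟩ := exists_quot Φ (hg none) (hs none) I hI
  have hq : ∀ {a s}, s ∈ W.Fil a → Ideal.Quotient.mk I s ∈ Ψ.fil a := fun h =>
    hΨ _ ▸ ⟨_, hm h, rfl⟩
  have hq' : ∀ {a r}, r ∈ Ψ.fil a → ∃ s ∈ W.Fil a, Ideal.Quotient.mk I s = r := fun h => by
    rw [hΨ] at h
    exact h.imp fun _ e => ⟨hm' e.1, e.2⟩
  have hx : ∀ i, Ψ.sym (wt4 i) (Ideal.Quotient.mk I (W.gen (some i))) = MvPolynomial.X i :=
    fun i => (hs' _ _ (hg (some i))).trans ((congrArg _ (hs (some i))).trans (kill_some i))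
  have hd : ∀ r a, ∃ c, r - W.fs c ∈ W.Fil a := fun r a => (W.Kr_le hD a).elim fun n e =>
    (W.dense hD n n r).imp fun _ h => e h
  have hmu : I = I.map (W.mu : A →+* A) := by
    simp [I, Ideal.map_span, W.mu_gr, D.cj_ψ]
  have hop : ∀ r ∈ I, W.op r = 0 := fun r h => by
    obtain ⟨s, rfl⟩ := (hI r).1 h
    ext1 z
    simp [W.op_gr, actK_ψ]
  have hn : ∀ r, ∃ t, r * W.sc X = W.sc X * t := fun r =>
    closed Φ (hg (some 0)) (h0 _) fun a => by
      obtain ⟨n, e⟩ := W.Kr_le hD a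
      obtain ⟨s, h1, _, ⟨t, rfl⟩, h2⟩ := Submodule.mem_sup.1 (W.mem_of_dense hD
        (U := (W.Fil a ⊔ LinearMap.range (LinearMap.mulLeft F (W.sc X))).comap
          (LinearMap.mulRight F (W.sc X)))
        (fun r hr => Submodule.mem_sup_left (W.mf.right (e hr) _))
        (fun f b => (W.mul_u f b).elim fun t e => Submodule.mem_sup_right ⟨t, e.symm⟩) r)
      exact ⟨t, hm ((eq_sub_of_add_eq h2 :) ▸ h1)⟩
  have hn' : ∀ r, ∃ t, W.sc X * r = t * W.sc X := fun r =>
    closed' Φ (hg (some 0)) (h0 _) fun a => by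
      obtain ⟨n, e⟩ := W.Kr_le hD a
      exact (W.mem_of_dense hD (U := (adj (W.Fil a) (W.sc X)).comap (LinearMap.mulLeft F (W.sc X)))
        (fun r hr => le_adj (W.mf.left _ (e hr))) (fun f b => (W.u_mul f b).elim fun t e =>
          ⟨t, by rw [LinearMap.mulLeft_apply, e, sub_self]; exact zero_mem _⟩) r).imp fun _ => hm
  let S : RD D (A ⧸ I) :=
    { toFRing := Ψ
      sc := (Ideal.Quotient.mkₐ F I).comp W.sc
      gr := (Ideal.Quotient.mk I).toMonoidHom.comp W.gr
      skew := fun a f => congrArg (Ideal.Quotient.mk I) (W.skew a f)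
      gr_ψ := Ideal.Quotient.eq.2 ((hI _).2 ⟨1, (mul_one _).symm⟩)
      u_mem := hq (of0 .u)
      u_sym := hx 0
      e₁_sym := hx 1
      e₂_sym := hx 2
      h_sym := hx 3
      wt_odd := fun l a h => hq (of0 (.odd l a h))
      wt_even := fun l a h => hq (of0 (.even l a h))
      dense := fun r a => by
        obtain ⟨r, rfl⟩ := Ideal.Quotient.mk_surjective r
        obtain ⟨c, e⟩ := hd r a
        refine ⟨c, ?_⟩
        have := hq e
        rwa [map_sub, fs_apply, map_finsuppSum] at this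
      u_normal := fun r => by
        obtain ⟨r, rfl⟩ := Ideal.Quotient.mk_surjective r
        exact (hn r).elim fun t e => ⟨Ideal.Quotient.mk I t, congrArg (Ideal.Quotient.mk I) e⟩
      u_normal' := fun r => by
        obtain ⟨r, rfl⟩ := Ideal.Quotient.mk_surjective r
        exact (hn' r).elim fun t e => ⟨Ideal.Quotient.mk I t, congrArg (Ideal.Quotient.mk I) e⟩
      mu := Ideal.quotientEquivAlg I I W.mu hmu
      mu_sc := fun f => congrArg (Ideal.Quotient.mk I) (W.mu_sc f)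
      mu_gr := fun a => congrArg (Ideal.Quotient.mk I) (W.mu_gr a)
      mu_fil := fun h => by
        obtain ⟨s, e, rfl⟩ := hq' h
        exact hq (W.mu_fil e)
      mu_pow := fun r => by
        obtain ⟨r, rfl⟩ := Ideal.Quotient.mk_surjective r
        have h : ∀ k, (Ideal.quotientEquivAlg I I W.mu hmu ^ k) (Ideal.Quotient.mk I r) =
            Ideal.Quotient.mk I ((W.mu ^ k) r) := fun k => by
          induction k with
          | zero => rfl
          | succ k ih => rw [pow_succ', AlgEquiv.mul_apply, ih, pow_succ']; rfl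
        rw [h, W.mu_pow hD]
      op := Ideal.Quotient.liftₐ I W.op hop
      op_sc := W.op_sc
      op_gr := W.op_gr
      op_mu := fun r z => by
        obtain ⟨r, rfl⟩ := Ideal.Quotient.mk_surjective r
        exact W.op_mu hD r z
      gain := fun h hz => by
        obtain ⟨s, e, rfl⟩ := hq' h
        exact W.gain hp hD e _ _ hz }
  exact ⟨A ⧸ I, _, _, S,
    { toFRing := Φ
      sc := W.sc
      gr := W.gr
      skew := W.skew
      pr := Ideal.Quotient.mkₐ F I
      pr_surj := Ideal.Quotient.mk_surjective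
      pr_sc := fun _ => rfl
      pr_gr := fun _ => rfl
      T_comm := W.T_comm hD
      T_reg := fun _ => reg Φ (hg none) (h0 _)
      pr_eq_zero := fun r => Ideal.Quotient.eq_zero_iff_mem.trans (hI r)
      u_mem := hg (some 0)
      wt_odd := fun l a h => hm (of0 (.odd l a h))
      dense := fun r a => (hd r a).imp fun _ => hm
      mu := W.mu
      mu_sc := W.mu_sc
      mu_gr := W.mu_gr
      mu_fil := fun h => hm (W.mu_fil (hm' h))
      pr_mu := fun _ => rfl
      lv := W.lv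
      lv_gen := W.lv_gen
      lv_fil := fun l i => (W.le_Kr hD l (i + 1)).imp fun _ e _ h => e (hm' h) i (Nat.lt_succ_self i)
      fil_lv := fun a => (W.Kr_le hD a).elim fun n e => ⟨n, n, fun _ h => hm (e h)⟩ },
    rfl, rfl, rfl, rfl, fun _ => rfl⟩

end IW

theorem rowGR [Fact p.Prime] [CharP F p] (hp : 5 ≤ p) (hD : RowDEP D) (h : RowIW D) : RowGR D :=
  rowGR_of h fun _ _ _ W => W.out hp hD

end Vale.Agent.P221X.GR
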