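import Vale.Agent.P221X.Base.Spec

/-!
# P221 / GR : models of the completed skew group ring

`IW D A` says that `A` is the inverse limit of the finite rings `(O / u ^ n)[G / G_l]`, acting
continuously on `K`.  Row GR is proved for every such ring.
-/

noncomputable section

namespace Vale.Agent.P221X.GR

open PowerSeries

variable {p : ℕ} {F : Type} [Field F]

/-- all the coordinates of the level `(l, n)` vanish -/
def Van {D : GD p F} {A : Type} [Ring A] [Algebra F A]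
    (lv : ∀ (l : ℕ) (_ : ℕ) (_ : D.G ⧸ D.Gf l), A →ₗ[F] F) (l n : ℕ) (r : A) : Prop :=
  ∀ i < n, ∀ c, lv l i c r = 0

/-- A model of `O[[G]]`; `lv l i c` is the coefficient of `u ^ i · [c]` in the image in
`O[G / G_l]`. -/
structure IW (D : GD p F) (A : Type) [Ring A] [Algebra F A] where
  sc : PowerSeries F →ₐ[F] A
  gr : D.G →* A
  skew : ∀ a f, gr a * sc f = sc (D.act a f) * gr a
  lv : ∀ (l : ℕ) (_ : ℕ) (_ : D.G ⧸ D.Gf l), A →ₗ[F] F
  lv_gen : ∀ l i c (f : PowerSeries F) (a : D.G), lv l i c (sc f * gr a) =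
    open Classical in if (a : D.G ⧸ D.Gf l) = c then coeff i f else 0
  van_anti : ∀ l n r, Van lv (l + 1) n r → Van lv l n r
  van_left : ∀ l n r s, Van lv l n r → Van lv l n (s * r)
  van_right : ∀ l n r s, (∀ a ∈ D.Gf l, Dep (D.act a) n) → Van lv l n r → Van lv l n (r * s)
  sep : ∀ r, (∀ n, Van lv n n r) → r = 0
  complete : ∀ s : ℕ → A, (∀ n, Van lv n n (s (n + 1) - s n)) → ∃ y, ∀ n, Van lv n n (y - s n)
  op : A →ₐ[F] Module.End F (KK F)
  op_sc : ∀ f z, op (sc f) z = algebraMap (PowerSeries F) (KK F) f * z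
  op_gr : ∀ a z, op (gr a) z = D.actK a z
  op_cont : ∀ (z : KK F) (k : ℤ), ∃ n, ∀ r, Van lv n n r → op r z ∈ KK.ge k
  mu : A ≃ₐ[F] A
  mu_sc : ∀ f, mu (sc f) = sc (D.rot f)
  mu_gr : ∀ a, mu (gr a) = gr (D.cj a)
  mu_van : ∀ l n r, Van lv l n r → Van lv l n (mu r)

/-- Row IW: a model exists. -/
def RowIW (D : GD p F) : Prop := ∃ (A : Type) (_ : Ring A) (_ : Algebra F A), Nonempty (IW D A)

/-- The output of the block GR for a given model. -/
def Out {D : GD p F} {A : Type} [Ring A] [Algebra F A] (W : IW D A) : Prop :=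
  ∃ (R : Type) (_ : Ring R) (_ : Algebra F R) (S : RD D R) (T : RF S A),
    T.sc = W.sc ∧ T.gr = W.gr ∧ T.lv = W.lv ∧ T.mu = W.mu ∧ ∀ r, S.op (T.pr r) = W.op r

theorem rowGR_of {D : GD p F} (h : RowIW D)
    (h' : ∀ (A : Type) [Ring A] [Algebra F A] (W : IW D A), Out W) : RowGR D := by
  obtain ⟨A, _, _, ⟨W⟩⟩ := h
  obtain ⟨R, _, _, S, T, -⟩ := h' A W
  exact ⟨R, _, _, S, A, _, _, ⟨T⟩⟩

end Vale.Agent.P221X.GR
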