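import Vale.Agent.P221X.GR.Word
import Vale.Agent.P221X.Base.Spec

/-!
# P221 / GR : generalities on `FRing`
-/

noncomputable section

namespace Vale.Agent.P221X.GR

open MvPolynomial

variable {F A σ : Type} [Field F] [Ring A] [Algebra F A]

theorem exists_factor {U V W : Type} [AddCommGroup U] [Module F U] [AddCommGroup V] [Module F V]
    [AddCommGroup W] [Module F W] (L : U →ₗ[F] V) (κ : U →ₗ[F] W) (h : ∀ x, L x = 0 → κ x = 0) :
    ∃ g : V →ₗ[F] W, ∀ x, g (L x) = κ x := by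
  obtain ⟨g, hg⟩ := LinearMap.exists_extend
    ((LinearMap.ker L).liftQ κ h ∘ₗ L.quotKerEquivRange.symm.toLinearMap)
  refine ⟨g, fun x => ?_⟩
  have := LinearMap.congr_fun hg ⟨L x, LinearMap.mem_range_self L x⟩
  rwa [LinearMap.comp_apply, LinearMap.comp_apply, LinearEquiv.coe_coe,
    LinearMap.quotKerEquivRange_symm_apply_image] at this

theorem tele {Fl : ℕ → Submodule F A} (h : Antitone Fl) {s : ℕ → A}
    (hs : ∀ n, s (n + 1) - s n ∈ Fl n) {n m : ℕ} (e : n ≤ m) : s m - s n ∈ Fl n := by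
  induction m, e using Nat.le_induction with
  | base => simp
  | succ m e ih => simpa using add_mem (h e (hs m)) ih

theorem exists_fring {Fl : ℕ → Submodule F A} {x : σ → A} {w : σ → ℕ} (h : Gens Fl x w)
    (hs : ∀ a s, s ∈ Fl a → ∃ φ, Sym Fl x w a s φ)
    (hu : ∀ a (φ : MvPolynomial σ F), IsWeightedHomogeneous w φ a → ev x φ ∈ Fl (a + 1) → φ = 0)
    (sep : ∀ s, (∀ a, s ∈ Fl a) → s = 0)
    (cpl : ∀ s : ℕ → A, (∀ n, s (n + 1) - s n ∈ Fl n) → ∃ a, ∀ n, a - s n ∈ Fl n) :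
    ∃ Φ : FRing F σ w A, Φ.fil = Fl ∧ ∀ i, Φ.sym (w i) (x i) = X i := by
  have key : ∀ a, ∃ g : A →ₗ[F] MvPolynomial σ F, ∀ s φ, Sym Fl x w a s φ → g s = φ := fun a => by
    obtain ⟨g, hg⟩ := exists_factor
      ((ev x ∘ₗ (weightedHomogeneousSubmodule F w a).subtype).coprod (Fl (a + 1)).subtype)
      ((weightedHomogeneousSubmodule F w a).subtype ∘ₗ LinearMap.fst F _ _) fun y hy =>
        hu a y.1 y.1.2 (by
          rw [show ev x y.1.1 = -y.2.1 from eq_neg_of_add_eq_zero_left hy]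
          exact neg_mem y.2.2)
    exact ⟨g, fun s φ e => by simpa using hg (⟨φ, e.1⟩, ⟨_, e.2⟩)⟩
  choose g hg using key
  have k2 : ∀ {a s}, s ∈ Fl a → Sym Fl x w a s (g a s) := fun {a s} e => by
    obtain ⟨φ, e'⟩ := hs a s e
    rwa [hg a s φ e']
  exact ⟨⟨Fl, h.top, fun e => h.anti e, h.mul, g, fun e => (k2 e).1,
    fun e => ⟨fun c => by simpa [c] using (k2 e).2, fun c => hg _ _ _ (Sym.zero c)⟩,
    fun e => ⟨_, h.ev_mem e, hg _ _ _ (Sym.ev e)⟩, fun e e' => hg _ _ _ ((k2 e).mul h (k2 e')),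
    hg _ _ _ (by simpa using Sym.C (Fl := Fl) (x := x) (w := w) (1 : F)), sep, cpl⟩, rfl,
    fun i => hg _ _ _ (Sym.X i)⟩

section FR

variable {w : σ → ℕ} (Φ : FRing F σ w A) {d : ℕ} {z : A}

theorem sym_zero {a : ℕ} {s : A} (h : s ∈ Φ.fil (a + 1)) : Φ.sym a s = 0 :=
  (Φ.sym_eq_zero (Φ.anti (Nat.le_succ a) h)).2 h

theorem mf : MF Φ.fil := ⟨Φ.fil_zero, fun _ _ e => Φ.anti e, Φ.mul_mem⟩

theorem cancel (hz : z ∈ Φ.fil d) (h0 : Φ.sym d z ≠ 0) {a : ℕ} {t : A}
    (h : z * t ∈ Φ.fil (d + a)) : t ∈ Φ.fil a := by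
  induction a with
  | zero => exact Φ.fil_zero t
  | succ a ih =>
    have h1 := ih (Φ.anti (Nat.le_succ _) h)
    have h2 := sym_zero Φ (a := d + a) h
    rw [Φ.sym_mul hz h1] at h2
    exact (Φ.sym_eq_zero h1).1 ((mul_eq_zero.1 h2).resolve_left h0)

theorem reg (hz : z ∈ Φ.fil d) (h0 : Φ.sym d z ≠ 0) {t : A} (h : z * t = 0) : t = 0 :=
  Φ.sep t fun _ => cancel Φ hz h0 (h ▸ zero_mem _)

theorem closed (hz : z ∈ Φ.fil d) (h0 : Φ.sym d z ≠ 0) {s : A}
    (h : ∀ a, ∃ t, s - z * t ∈ Φ.fil a) : ∃ t, s = z * t := by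
  choose t ht using h
  obtain ⟨y, hy⟩ := Φ.complete (fun n => t (d + n)) fun n => cancel Φ hz h0 (by
    have := sub_mem (ht (d + n)) (Φ.anti (Nat.le_succ _) (ht (d + (n + 1))))
    rwa [sub_sub_sub_cancel_left, ← mul_sub] at this)
  refine ⟨y, sub_eq_zero.1 (Φ.sep _ fun n => ?_)⟩
  have := sub_mem (Φ.anti (Nat.le_add_left n d) (ht (d + n))) ((mf Φ).left z (hy n))
  rwa [mul_sub, sub_sub_sub_cancel_right] at this

theorem closed' (hz : z ∈ Φ.fil d) (h0 : Φ.sym d z ≠ 0) {s : A}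
    (h : ∀ a, ∃ t, s - t * z ∈ Φ.fil a) : ∃ t, s = t * z := by
  obtain ⟨t, ht⟩ := closed Φ.opp (z := MulOpposite.op z) (s := MulOpposite.op s) hz h0
    fun a => (h a).elim fun t e => ⟨MulOpposite.op t, e⟩
  exact ⟨t.unop, congrArg MulOpposite.unop ht⟩

end FR

section Quot

variable {w : σ → ℕ} {d : ℕ}

/-- setting the extra variable to zero -/
abbrev kill : MvPolynomial (Option σ) F →ₐ[F] MvPolynomial σ F :=
  killCompl (Option.some_injective σ)

theorem weight_some (n : σ →₀ ℕ) :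
    Finsupp.weight (fun i : Option σ => i.elim d w) (n.mapDomain some) = Finsupp.weight w n := by
  induction n using Finsupp.induction_linear with
  | zero => simp
  | add a b ha hb => rw [Finsupp.mapDomain_add, map_add, map_add, ha, hb]
  | single i k => simp [Finsupp.weight_single]

theorem kill_hom {a : ℕ} {φ : MvPolynomial (Option σ) F}
    (h : IsWeightedHomogeneous (fun i : Option σ => i.elim d w) φ a) :
    IsWeightedHomogeneous w (kill φ) a := fun n hn => by
  rw [coeff_killCompl] at hn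
  rw [← h hn, weight_some]

theorem rename_hom {a : ℕ} {φ : MvPolynomial σ F} (h : IsWeightedHomogeneous w φ a) :
    IsWeightedHomogeneous (fun i : Option σ => i.elim d w) (rename some φ) a := fun n hn => by
  obtain ⟨m, rfl, hm⟩ := coeff_rename_ne_zero _ _ _ hn
  rw [weight_some, h hm]

theorem kill_none : kill (X none : MvPolynomial (Option σ) F) = 0 :=
  killCompl_monomial_eq_zero_of_notMem_range _ (a := none) _ (by simp) (by simp)

theorem kill_some (i : σ) : kill (X (some i) : MvPolynomial (Option σ) F) = X i := by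
  rw [← rename_X some, killCompl_rename_app]

theorem kill_eq_zero {a : ℕ} {φ : MvPolynomial (Option σ) F}
    (h : IsWeightedHomogeneous (fun i : Option σ => i.elim d w) φ a) (e : kill φ = 0) :
    φ = 0 ∨ ∃ b ψ, a = d + b ∧ IsWeightedHomogeneous (fun i : Option σ => i.elim d w) ψ b ∧
      φ = X none * ψ := by
  have h1 : φ = X none * φ.divMonomial (Finsupp.single none 1) := by
    have h3 : φ.modMonomial (Finsupp.single none 1) = 0 := by
      ext n
      by_cases c : Finsupp.single none 1 ≤ n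
      · exact coeff_modMonomial_of_le φ c
      · have h4 : n = (n.comapDomain some (Option.some_injective σ).injOn).mapDomain some := by
          refine (Finsupp.mapDomain_comapDomain _ (Option.some_injective σ) n fun i hi => ?_).symm
          cases i with
          | none => exact absurd (by simpa [Nat.one_le_iff_ne_zero] using hi) c
          | some i => exact ⟨i, rfl⟩
        rw [coeff_modMonomial_of_not_le φ c, h4, ← coeff_killCompl (Option.some_injective σ), e]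
        rfl
    simpa [h3] using (φ.divMonomial_add_modMonomial_single none).symm
  have h2 : ∀ n, coeff n (φ.divMonomial (Finsupp.single none 1)) ≠ 0 →
      a = d + Finsupp.weight (fun i : Option σ => i.elim d w) n := fun n hn => by
    rw [coeff_divMonomial] at hn
    rw [← h hn, map_add, Finsupp.weight_single]
    simp
  by_cases c : φ.divMonomial (Finsupp.single none 1) = 0
  · exact Or.inl (by rw [h1, c, mul_zero])
  · obtain ⟨n, hn⟩ := exists_coeff_ne_zero c
    exact Or.inr ⟨_, _, h2 n hn, fun m hm => by have := h2 m hm; have := h2 n hn; omega, h1⟩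

/-- the quotient by a central element whose symbol is a variable -/
theorem exists_quot (Φ : FRing F (Option σ) (fun i => i.elim d w) A) {T : A} (hT : T ∈ Φ.fil d)
    (hs : Φ.sym d T = X none) (I : Ideal A) [I.IsTwoSided] (hI : ∀ r, r ∈ I ↔ ∃ s, r = T * s) :
    ∃ Ψ : FRing F σ w (A ⧸ I),
      (∀ a, Ψ.fil a = (Φ.fil a).map (Ideal.Quotient.mkₐ F I).toLinearMap) ∧
      ∀ a s, s ∈ Φ.fil a → Ψ.sym a (Ideal.Quotient.mk I s) = kill (Φ.sym a s) := by
  have h0 : Φ.sym d T ≠ 0 := hs ▸ X_ne_zero _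
  have key : ∀ a, ∃ g : A ⧸ I →ₗ[F] MvPolynomial σ F, ∀ s, s ∈ Φ.fil a →
      g (Ideal.Quotient.mk I s) = kill (Φ.sym a s) := fun a => by
    obtain ⟨g, hg⟩ := exists_factor ((Ideal.Quotient.mkₐ F I).toLinearMap ∘ₗ (Φ.fil a).subtype)
      ((kill (F := F) (σ := σ)).toLinearMap ∘ₗ Φ.sym a ∘ₗ (Φ.fil a).subtype) fun y hy => by
        obtain ⟨s, e⟩ := (hI _).1 (Ideal.Quotient.eq_zero_iff_mem.1 hy)
        change y.1 = _ at e
        change kill (Φ.sym a y.1) = 0
        rcases lt_or_ge a d with c | c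
        · rw [e, sym_zero Φ (Φ.anti c ((mf Φ).right hT s)), map_zero]
        · obtain ⟨b, rfl⟩ := Nat.exists_eq_add_of_le c
          rw [e, Φ.sym_mul hT (cancel Φ hT h0 (e ▸ y.2)), hs, map_mul, kill_none, zero_mul]
    exact ⟨g, fun s e => hg ⟨s, e⟩⟩
  choose g hg using key
  refine ⟨⟨fun a => (Φ.fil a).map (Ideal.Quotient.mkₐ F I).toLinearMap, fun s => ?_,
    fun e => Submodule.map_mono (Φ.anti e), ?_, g, ?_, ?_, fun e => ?_, ?_, ?_, fun s e => ?_,
    fun s e => ?_⟩, fun _ => rfl, hg⟩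
  · obtain ⟨s, rfl⟩ := Ideal.Quotient.mk_surjective s
    exact ⟨s, Φ.fil_zero s, rfl⟩
  · rintro a b _ _ ⟨s, e, rfl⟩ ⟨t, e', rfl⟩
    exact ⟨s * t, Φ.mul_mem e e', rfl⟩
  · rintro a _ ⟨s, e, rfl⟩
    exact (hg a s e).symm ▸ kill_hom (Φ.sym_hom e)
  · rintro a _ ⟨s, e, rfl⟩
    refine ⟨fun c => ?_, ?_⟩
    · rcases kill_eq_zero (Φ.sym_hom e) ((hg a s e).symm.trans c) with c | ⟨b, ψ, rfl, h1, h2⟩
      · exact ⟨s, (Φ.sym_eq_zero e).1 c, rfl⟩
      · obtain ⟨t, e', rfl⟩ := Φ.sym_surj h1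
        refine ⟨s - T * t, (Φ.sym_eq_zero (sub_mem e (Φ.mul_mem hT e'))).1 ?_, ?_⟩
        · rw [map_sub, Φ.sym_mul hT e', hs, h2, sub_self]
        · exact Ideal.Quotient.eq.2 ((hI _).2 ⟨-t, by simp⟩)
    · rintro ⟨t, e', c⟩
      rw [← c]
      exact (hg a t (Φ.anti (Nat.le_succ a) e')).trans (by rw [sym_zero Φ e', map_zero])
  · obtain ⟨s, e', c⟩ := Φ.sym_surj (rename_hom (d := d) e)
    exact ⟨_, ⟨s, e', rfl⟩, (hg _ s e').trans (by rw [c, killCompl_rename_app])⟩
  · rintro a b _ _ ⟨s, e, rfl⟩ ⟨t, e', rfl⟩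
    exact (hg _ _ (Φ.mul_mem e e')).trans (by
      rw [Φ.sym_mul e e', map_mul, ← hg a s e, ← hg b t e']; rfl)
  · exact (hg 0 1 (Φ.fil_zero 1)).trans (by rw [Φ.sym_one, map_one])
  · obtain ⟨s, rfl⟩ := Ideal.Quotient.mk_surjective s
    refine Ideal.Quotient.eq_zero_iff_mem.2 ((hI s).2 (closed Φ hT h0 fun a => ?_))
    obtain ⟨t, e', c⟩ := e a
    obtain ⟨r, c'⟩ := (hI _).1 (Ideal.Quotient.eq.1 c.symm)
    exact ⟨r, by rwa [← c', sub_sub_cancel]⟩
  · choose t ht ht' using e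
    obtain ⟨s₀, c⟩ := Ideal.Quotient.mk_surjective (s 0)
    have h1 : ∀ n, Ideal.Quotient.mk I (s₀ + ∑ i ∈ Finset.range n, t i) = s n := fun n => by
      induction n with
      | zero => simpa using c
      | succ n ih =>
        rw [Finset.sum_range_succ, ← add_assoc, map_add, ih]
        exact (congrArg _ (ht' n)).trans (add_sub_cancel _ _)
    obtain ⟨y, hy⟩ := Φ.complete (fun n => s₀ + ∑ i ∈ Finset.range n, t i) fun n => by
      simpa [Finset.sum_range_succ] using ht n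
    exact ⟨Ideal.Quotient.mk I y, fun n => ⟨_, hy n, by rw [← h1 n]; rfl⟩⟩

end Quot

end Vale.Agent.P221X.GR
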