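import Vale.Agent.P221X.GR.Top
import Vale.Agent.P221X.GR.Gen

/-!
# P221 / GR : the filtration of a model
-/

noncomputable section

namespace Vale.Agent.P221X.GR

open PowerSeries

variable {p : ℕ} {F : Type} [Field F] {D : GD p F} {A : Type} [Ring A] [Algebra F A]

theorem pow_mem (D : GD p F) {i : ℕ} {a : D.G} (h : a ∈ D.Gf (i + 1)) (l : ℕ) :
    a ^ p ^ l ∈ D.Gf (2 * l + (i + 1)) := by
  induction l with
  | zero => simpa using h
  | succ l ih =>
    rw [pow_succ, pow_mul]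
    exact D.Gf_anti (by omega) (D.Gf_pow (by omega) ih)

theorem two_gen (D : GD p F) (i : ℕ) : ∃ c d : D.G, c ∈ D.Gf (i + 1) ∧ d ∈ D.Gf (i + 1) ∧
    ∀ a ∈ D.Gf (i + 1), ∃ x y : ℕ, (c ^ x * d ^ y)⁻¹ * a ∈ D.Gf (i + 2) := by
  obtain ⟨l, rfl | rfl⟩ := i.even_or_odd'
  · exact ⟨_, _, pow_mem D (D.Gf_one _) l, pow_mem D (D.Gf_one _) l, D.odd_span l⟩
  · exact ⟨_, _, pow_mem D D.g_mem l, pow_mem D D.ψ_mem l, D.even_span l⟩

/-- the filtration before taking closures -/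
inductive Fil0 (W : IW D A) : ℕ → A → Prop
  | top (s) : Fil0 W 0 s
  | u : Fil0 W 4 (W.sc X)
  | odd (l a) : a ∈ D.Gf (2 * l + 1) → Fil0 W (p ^ l) (W.gr a - 1)
  | even (l a) : a ∈ D.Gf (2 * l + 2) → Fil0 W (3 * p ^ l) (W.gr a - 1)
  | mul {a b c s t} : Fil0 W a s → Fil0 W b t → c ≤ a + b → Fil0 W c (s * t)
  | add {a s t} : Fil0 W a s → Fil0 W a t → Fil0 W a (s + t)
  | zero (a) : Fil0 W a 0

namespace IW

variable (W : IW D A)

/-- the filtration before taking closures -/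
def F0 (a : ℕ) : Submodule F A where
  carrier := {s | Fil0 W a s}
  add_mem' := .add
  zero_mem' := .zero a
  smul_mem' := fun c s h => by
    rw [Algebra.smul_def]; exact .mul (.top _) h (zero_add a).ge

theorem mf0 : MF W.F0 :=
  ⟨.top, fun _ _ e s h => mul_one s ▸ .mul h (.top 1) e, fun h h' => .mul h h' le_rfl⟩

/-- the filtration -/
def Fil (a : ℕ) : Submodule F A where
  carrier := {s | ∀ n, ∃ t ∈ W.F0 a, s - t ∈ W.Kr n n}
  add_mem' := fun h h' n => by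
    obtain ⟨t, h1, h2⟩ := h n
    obtain ⟨t', h3, h4⟩ := h' n
    exact ⟨t + t', add_mem h1 h3, by rw [add_sub_add_comm]; exact add_mem h2 h4⟩
  zero_mem' := fun _ => ⟨0, zero_mem _, by simp⟩
  smul_mem' := fun c s h n => by
    obtain ⟨t, h1, h2⟩ := h n
    exact ⟨c • t, Submodule.smul_mem _ c h1, by rw [← smul_sub]; exact Submodule.smul_mem _ c h2⟩

variable {W} in
theorem of0 {a : ℕ} {s : A} (h : Fil0 W a s) : s ∈ W.Fil a := fun _ => ⟨s, h, by simp⟩

theorem mf : MF W.Fil where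
  top s := of0 (.top s)
  anti := fun _ _ e _ h n => (h n).imp fun _ h' => ⟨W.mf0.anti e h'.1, h'.2⟩
  mul := fun {a b s t} h h' n => by
    obtain ⟨m, e⟩ := W.exists_right n
    obtain ⟨s', h1, h2⟩ := h m
    obtain ⟨t', h3, h4⟩ := h' n
    refine ⟨s' * t', W.mf0.mul h1 h3, ?_⟩
    rw [show s * t - s' * t' = s * (t - t') + (s - s') * t' by noncomm_ring]
    exact add_mem (W.Kr_left s h4) (e _ h2 _)

/-- the generators -/
def gen : Option (Fin 4) → A :=
  fun i => i.elim (W.gr D.ψ - 1) ![W.sc X, W.gr D.γ₁ - 1, W.gr D.γ₂ - 1, W.gr D.g - 1]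

theorem mem_one (a : D.G) : W.gr a - 1 ∈ W.Fil 1 := of0 (.odd 0 a (D.Gf_one a))

theorem mem_three {a : D.G} (h : a ∈ D.Gf 2) : W.gr a - 1 ∈ W.Fil 3 := of0 (.even 0 a h)

theorem gens (hp : 5 ≤ p) : Gens W.Fil W.gen wt5 where
  toMF := W.mf
  mem i := by
    rcases i with _ | i
    · exact W.mem_three D.ψ_mem
    · fin_cases i
      exacts [of0 .u, W.mem_one _, W.mem_one _, W.mem_three D.g_mem]
  comm := by
    have e : ∀ a b : A, (a - 1) * (b - 1) - (b - 1) * (a - 1) = a * b - b * a := fun a b => by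
      noncomm_ring
    have h0 : ∀ (s : A) k, s * s - s * s ∈ W.Fil k := fun s k => by simp
    have h1 : ∀ (a : D.G) k, k ≤ 8 → (W.gr a - 1) * W.sc X - W.sc X * (W.gr a - 1) ∈ W.Fil k :=
      fun a k hk => by
        obtain ⟨v, e⟩ := act_X D a
        rw [sub_mul, mul_sub, one_mul, mul_one, sub_sub_sub_cancel_right, W.skew, ← sub_mul,
          ← map_sub, e, add_sub_cancel_left, map_mul, map_pow]
        exact W.mf.anti hk (W.mf.right (W.mf.right (W.mf.pow (of0 .u) 2) _) _)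
    have h2 : ∀ (a b : D.G), (W.gr a - 1) * (W.gr b - 1) - (W.gr b - 1) * (W.gr a - 1) ∈ W.Fil 3 :=
      fun a b => by
        rw [e, gr_comm]
        exact W.mf.right (W.mem_three (D.Gf_comm (D.Gf_one a) (D.Gf_one b))) _
    have h3 : ∀ (a : D.G), (W.gr a - 1) * (W.gr D.g - 1) - (W.gr D.g - 1) * (W.gr a - 1) ∈
        W.Fil 5 := fun a => by
      rw [e, gr_comm]
      exact W.mf.right (W.mf.anti (by simpa using hp)
        (of0 (.odd 1 _ (D.Gf_comm (i := 1) (j := 2) (D.Gf_one a) D.g_mem)))) _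
    have h4 : ∀ (a : D.G) k, (W.gr D.ψ - 1) * (W.gr a - 1) - (W.gr a - 1) * (W.gr D.ψ - 1) ∈
        W.Fil k := fun a k => by
      rw [e, ← map_mul, ← map_mul, D.ψ_comm, sub_self]
      exact zero_mem _
    have n : ∀ {s t : A} {k}, s - t ∈ W.Fil k → t - s ∈ W.Fil k := fun h => sub_mem_comm_iff.1 h
    rintro (_ | i) (_ | j)
    · exact h0 _ _
    · fin_cases j
      exacts [h1 _ _ le_rfl, h4 _ _, h4 _ _, h4 _ _]
    · fin_cases i
      exacts [n (h1 _ _ le_rfl), n (h4 _ _), n (h4 _ _), n (h4 _ _)]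
    · fin_cases i <;> fin_cases j
      exacts [h0 _ _, n (h1 _ 6 (by omega)), n (h1 _ 6 (by omega)), n (h1 _ _ le_rfl),
        h1 _ 6 (by omega), h0 _ _, h2 _ _, h3 _, h1 _ 6 (by omega), h2 _ _, h0 _ _, h3 _,
        h1 _ _ le_rfl, n (h3 _), n (h3 _), h0 _ _]

include W in
theorem nontrivial : Nontrivial A := ⟨1, 0, fun e => by
  have := W.lv_gen 0 0 (1 : D.G) 1 1
  rw [map_one, map_one, one_mul, e] at this
  simp at this⟩

variable [Fact p.Prime] [CharP F p]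

theorem frob (a : D.G) (l : ℕ) : W.gr (a ^ p ^ l) - 1 = (W.gr a - 1) ^ p ^ l := by
  have := W.nontrivial
  have := charP_of_injective_algebraMap (algebraMap F A).injective p
  rw [sub_pow_char_pow_of_commute _ _ (Commute.one_right _), one_pow, map_pow]

omit [CharP F p] in
theorem Kr_le (hD : RowDEP D) (a : ℕ) : ∃ n, W.Kr n n ≤ W.Fil a := by
  refine ⟨2 * a + 1, fun r hr n => ?_⟩
  obtain ⟨c, e⟩ := W.dense hD (max n (2 * a + 1)) (max n (2 * a + 1)) r
  refine ⟨W.fs c, W.fs_ker hD (W.mf0.ts a) (l := 2 * a + 1) (n := 2 * a + 1)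
    (W.mf0.anti (by omega) (W.mf0.pow (a := 4) .u _)) (fun b hb => W.mf0.anti
      (Nat.lt_pow_self (Fact.out : p.Prime).one_lt).le (Fil0.odd a b hb)) ?_,
    W.Kr_anti (le_max_left _ _) (le_max_left _ _) e⟩
  simpa using sub_mem hr (W.Kr_anti (le_max_right _ _) (le_max_right _ _) e)

theorem le_Kr (hD : RowDEP D) (l n : ℕ) : ∃ a, W.Fil a ≤ W.Kr l n := by
  obtain ⟨m, e, hK⟩ := W.exists_ts l n
  obtain ⟨J, h1, h2, h3, k, h4⟩ := W.nil hD (fun a => by simpa using W.frob a 1) (two_gen D) hK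
  have h5 := hK.mf h1
  have h6 : 1 < p := (Fact.out : p.Prime).one_lt
  have h7 : 0 < p ^ m := by positivity
  have h8 : ∀ {s}, s ∈ J → s ∈ W.Kr m n ⊔ pw J 1 := fun h =>
    Submodule.mem_sup_right ((pw_one h1).symm ▸ h)
  have h9 : ∀ (l i : ℕ) (a : D.G) w, a ∈ D.Gf (2 * l + i) → w ≤ 4 * p ^ l →
      ∃ j, w ≤ 4 * p ^ m * j ∧ W.gr a - 1 ∈ W.Kr m n ⊔ pw J j := fun l i a w ha hw => by
    rcases le_total l m with c | c
    · exact ⟨1, by have := Nat.pow_le_pow_right h6.le c; omega, h8 (h3 a)⟩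
    · exact ⟨w, Nat.le_mul_of_pos_left _ (by omega),
        Submodule.mem_sup_left (W.gr_mem n (D.Gf_anti (by omega) ha))⟩
  have key : ∀ a s, Fil0 W a s → ∃ j, a ≤ 4 * p ^ m * j ∧ s ∈ W.Kr m n ⊔ pw J j := fun a s h => by
    induction h with
    | top s => exact ⟨0, le_rfl, h5.top s⟩
    | u => exact ⟨1, by omega, h8 h2⟩
    | odd l a ha => exact h9 l 1 a _ ha (by omega)
    | even l a ha => exact h9 l 2 a _ ha (by omega)
    | mul _ _ c ih ih' =>
      obtain ⟨j, e1, e2⟩ := ih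
      obtain ⟨j', e3, e4⟩ := ih'
      exact ⟨j + j', by rw [mul_add]; omega, h5.mul e2 e4⟩
    | add _ _ ih ih' =>
      obtain ⟨j, e1, e2⟩ := ih
      obtain ⟨j', e3, e4⟩ := ih'
      rcases le_total j j' with c | c
      · exact ⟨j, e1, add_mem e2 (h5.anti c e4)⟩
      · exact ⟨j', e3, add_mem (h5.anti c e2) e4⟩
    | zero a => exact ⟨a, Nat.le_mul_of_pos_left _ (by omega), zero_mem _⟩
  refine ⟨4 * p ^ m * k, fun s hs => W.Kr_anti e le_rfl ?_⟩
  obtain ⟨t, e1, e2⟩ := hs (max m n)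
  obtain ⟨j, e3, e4⟩ := key _ t e1
  simpa using add_mem (W.Kr_anti (le_max_left _ _) (le_max_right _ _) e2)
    (sup_le le_rfl h4 (h5.anti (Nat.le_of_mul_le_mul_left e3 (by omega)) e4))

theorem span (hp : 5 ≤ p) (hD : RowDEP D) (a : ℕ) (s : A) (hs : s ∈ W.Fil a) :
    ∃ φ, Sym W.Fil W.gen wt5 a s φ := by
  have G := W.gens hp
  have up : ∀ {a} {s t : A}, s - t ∈ W.Fil (a + 1) → (∃ φ, Sym W.Fil W.gen wt5 a t φ) →
      ∃ φ, Sym W.Fil W.gen wt5 a s φ := fun h ⟨φ, e⟩ => ⟨_, by simpa using (Sym.zero h).add e⟩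
  have ml : ∀ {w} {a b : D.G}, 0 < w → (∃ φ, Sym W.Fil W.gen wt5 w (W.gr a - 1) φ) →
      (∃ φ, Sym W.Fil W.gen wt5 w (W.gr b - 1) φ) →
      ∃ φ, Sym W.Fil W.gen wt5 w (W.gr (a * b) - 1) φ := fun {w a b} hw ⟨φ, e⟩ ⟨ψ, e'⟩ => by
    refine up ?_ ⟨_, e.add e'⟩
    rw [show W.gr (a * b) - 1 - (W.gr a - 1 + (W.gr b - 1)) = (W.gr a - 1) * (W.gr b - 1) by
      rw [map_mul]; noncomm_ring]
    exact W.mf.mul_le (e.mem G) (e'.mem G) (by omega)
  have pw : ∀ {w} {a : D.G}, 0 < w → (∃ φ, Sym W.Fil W.gen wt5 w (W.gr a - 1) φ) → ∀ k : ℕ,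
      ∃ φ, Sym W.Fil W.gen wt5 w (W.gr (a ^ k) - 1) φ := fun hw h k => by
    induction k with
    | zero => exact ⟨_, Sym.zero (by simp)⟩
    | succ k ih => rw [pow_succ]; exact ml hw ih h
  have gn : ∀ (i l) {w} (c : D.G), W.gen i = W.gr c - 1 → w = p ^ l * wt5 i →
      ∃ φ, Sym W.Fil W.gen wt5 w (W.gr (c ^ p ^ l) - 1) φ := fun i l w c e e' => by
    rw [W.frob, ← e, e']
    exact ⟨_, Sym.pow i _⟩
  have key : ∀ a s, Fil0 W a s → ∃ φ, Sym W.Fil W.gen wt5 a s φ := fun a s h => by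
    induction h with
    | top s =>
      obtain ⟨n, e⟩ := W.Kr_le hD 1
      obtain ⟨c, e'⟩ := W.mem_of_dense hD (U := W.Fil 1 ⊔ LinearMap.range (Algebra.linearMap F A))
        (e.trans le_sup_left) (fun f a => by
          obtain ⟨g, e'⟩ := X_dvd_iff.2 (show constantCoeff (f - C (constantCoeff f)) = 0 by simp)
          rw [show W.sc f * W.gr a = W.sc f * (W.gr a - 1) + W.sc (f - C (constantCoeff f)) +
            W.sc (algebraMap F _ (constantCoeff f)) by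
              rw [add_assoc, ← map_add, mul_sub, mul_one]; simp, e', map_mul, AlgHom.commutes]
          exact Submodule.add_mem_sup (add_mem (W.mf.left _ (W.mem_one a))
            (W.mf.anti (by omega) (W.mf.right (of0 .u) _))) ⟨_, rfl⟩) s |> Submodule.mem_sup.1
      obtain ⟨h1, _, ⟨d, rfl⟩, rfl⟩ := e'
      exact up (by simpa using h1) ⟨_, Sym.C d⟩
    | u => exact ⟨_, Sym.X (some 0)⟩
    | odd l a ha =>
      obtain ⟨x, y, e⟩ := D.odd_span l a ha
      have h0 : 0 < p ^ l := by positivity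
      rw [← mul_inv_cancel_left ((D.γ₁ ^ p ^ l) ^ x * (D.γ₂ ^ p ^ l) ^ y) a]
      exact ml h0 (ml h0 (pw h0 (gn (some 1) l _ rfl (mul_one _).symm) x)
        (pw h0 (gn (some 2) l _ rfl (mul_one _).symm) y))
        ⟨_, Sym.zero (W.mf.anti (by omega) (of0 (.even l _ e)))⟩
    | even l a ha =>
      obtain ⟨x, y, e⟩ := D.even_span l a ha
      have h0 : 0 < p ^ l := by positivity
      have h1 : 0 < 3 * p ^ l := by omega
      rw [← mul_inv_cancel_left ((D.g ^ p ^ l) ^ x * (D.ψ ^ p ^ l) ^ y) a]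
      exact ml h1 (ml h1 (pw h1 (gn (some 3) l _ rfl (mul_comm _ _)) x)
        (pw h1 (gn none l _ rfl (mul_comm _ _)) y))
        ⟨_, Sym.zero (W.mf.anti (by rw [pow_succ]; nlinarith) (of0 (.odd (l + 1) _ e)))⟩
    | mul h h' c ih ih' =>
      rcases c.eq_or_lt with rfl | c
      · exact ih.elim fun _ e => ih'.elim fun _ e' => ⟨_, e.mul G e'⟩
      · exact ⟨_, Sym.zero (of0 (.mul h h' c))⟩
    | add _ _ ih ih' => exact ih.elim fun _ e => ih'.elim fun _ e' => ⟨_, e.add e'⟩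
    | zero a => exact ⟨_, Sym.zero (zero_mem _)⟩
  obtain ⟨n, e⟩ := W.Kr_le hD (a + 1)
  obtain ⟨t, h1, h2⟩ := hs n
  exact up (e h2) (key a t h1)

theorem uniq (hp : 5 ≤ p) (hD : RowDEP D) (a : ℕ) (φ : MvPolynomial (Option (Fin 4)) F)
    (hφ : φ.IsWeightedHomogeneous wt5 a) (e : ev W.gen φ ∈ W.Fil (a + 1)) : φ = 0 := by
  obtain ⟨l, hl⟩ : ∃ l, φ.totalDegree < l := ⟨_, Nat.lt_succ_self _⟩
  have := hD.fin (2 * l + 1)
  have := Fintype.ofFinite (D.G ⧸ D.Gf (2 * l + 1))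
  obtain ⟨b, hb⟩ := W.le_Kr hD (2 * l + 1) (p ^ l)
  have h1 : ∀ i, W.gen i ^ p ^ l ∈ W.Kr (2 * l + 1) (p ^ l) := by
    have h : ∀ c, (W.gr c - 1) ^ p ^ l ∈ W.Kr (2 * l + 1) (p ^ l) := fun c =>
      W.frob c l ▸ W.gr_mem _ (pow_mem D (D.Gf_one c) l)
    rintro (_ | i)
    · exact h _
    · fin_cases i
      exacts [W.sc_mem _ _, h _, h _, h _]
  refine indep (W.prj (2 * l + 1) (p ^ l)) (fun y => ⟨_, W.prj_sec _ _ y⟩) (fun _ => p ^ l) ?_
    (fun _ => by positivity) W.mf.top (W.span hp hD) (W := b)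
    (fun _ c _ hs => W.prj_eq_zero.2 (hb (W.mf.anti c hs))) (fun n ⟨i, hi⟩ => ?_) hφ
    (fun n hn i => ?_) e
  · simp only [Module.finrank_pi_fintype, Module.finrank_self, Finset.sum_const, Finset.card_univ,
      Fintype.card_fin, smul_eq_mul, mul_one, Finset.prod_const, Fintype.card_option]
    rw [← Nat.card_eq_fintype_card, hD.card]
    ring
  · obtain ⟨m, rfl⟩ := exists_add_of_le (Finsupp.single_le_iff.2 hi)
    rw [add_comm (Finsupp.single _ _)]
    exact ⟨_, W.prj_eq_zero.2 (W.Kr_left _ (h1 i)),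
      mon_single W.gen i _ ▸ (W.gens hp).mon_add m (Finsupp.single i (p ^ l))⟩
  · exact ((MvPolynomial.monomial_le_degreeOf i (MvPolynomial.mem_support_iff.2 hn)).trans
      (φ.degreeOf_le_totalDegree i)).trans_lt (hl.trans (Nat.lt_pow_self (by omega)))

theorem fring (hp : 5 ≤ p) (hD : RowDEP D) : ∃ Φ : FRing F (Option (Fin 4)) wt5 A,
    Φ.fil = W.Fil ∧ ∀ i, Φ.sym (wt5 i) (W.gen i) = MvPolynomial.X i := by
  refine exists_fring (W.gens hp) (W.span hp hD) (W.uniq hp hD)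
    (fun s hs => W.sep s fun n => (W.le_Kr hD n n).elim fun a e => e (hs a)) fun s hs => ?_
  choose b hb using fun n => W.le_Kr hD n n
  let c : ℕ → ℕ := fun n => n + ∑ i ∈ Finset.range (n + 1), b i
  have h1 : ∀ n, c n ≤ c (n + 1) := fun n => by
    simp only [c, Finset.sum_range_succ]; omega
  have h2 : ∀ n, b n ≤ c n := fun n => by simp only [c, Finset.sum_range_succ]; omega
  obtain ⟨y, hy⟩ := W.complete (fun n => s (c n)) fun n =>
    hb n (W.mf.anti (h2 n) (tele W.mf.anti hs (h1 n)))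
  refine ⟨y, fun n => ?_⟩
  obtain ⟨m, e⟩ := W.Kr_le hD n
  simpa using add_mem (e (W.Kr_anti (le_max_left m n) (le_max_left m n) (hy (max m n))))
    (tele W.mf.anti hs ((le_max_right m n).trans (Nat.le_add_right _ _) : n ≤ c (max m n)))

end IW

end Vale.Agent.P221X.GR
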