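import Vale.Agent.P221X.GR.Word

/-!
# P221 / GR : nilpotent ideals
-/

noncomputable section

namespace Vale.Agent.P221X.GR

variable {F A : Type} [Field F] [Ring A] [Algebra F A]

/-- two sided ideals -/
structure TS (J : Submodule F A) : Prop where
  left : ∀ (s) {r}, r ∈ J → s * r ∈ J
  right : ∀ {r}, r ∈ J → ∀ s, r * s ∈ J

/-- powers -/
def pw (J : Submodule F A) : ℕ → Submodule F A
  | 0 => ⊤
  | j + 1 => J * pw J j

variable {I J K : Submodule F A} {z : A}

theorem pw_left (h : TS J) (j : ℕ) : ⊤ * pw J j ≤ pw J j := by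
  cases j with
  | zero => exact le_top
  | succ j =>
    rw [pw, ← mul_assoc]
    exact mul_le_mul' (Submodule.mul_le.2 fun s _ _ hr => h.left s hr) le_rfl

theorem pw_add (h : TS J) (i j : ℕ) : pw J (i + j) = pw J i * pw J j := by
  induction i with
  | zero =>
    rw [zero_add]
    exact le_antisymm (fun s hs => one_mul s ▸ Submodule.mul_mem_mul trivial hs) (pw_left h j)
  | succ i ih => rw [Nat.add_right_comm, pw, ih, pw, mul_assoc]

theorem pw_comp (h : TS J) {k : ℕ} (e : pw J k ≤ I) (m : ℕ) : pw J (k * m) ≤ pw I m := by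
  induction m with
  | zero => exact le_top
  | succ m ih =>
    rw [Nat.mul_succ, add_comm, pw_add h]
    exact mul_le_mul' e ih

theorem pw_one (h : TS J) : pw J 1 = J :=
  le_antisymm (Submodule.mul_le.2 fun _ hr s _ => h.right hr s)
    fun s hs => mul_one s ▸ Submodule.mul_mem_mul hs trivial

theorem TS.mf (hK : TS K) (hJ : TS J) : MF fun j => K ⊔ pw J j where
  top _ := Submodule.mem_sup_right trivial
  anti := antitone_nat_of_succ_le fun j =>
    sup_le_sup_left ((mul_le_mul' le_top le_rfl).trans (pw_left hJ j)) K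
  mul := fun {a b s t} hs ht => by
    obtain ⟨s, h1, s', h2, rfl⟩ := Submodule.mem_sup.1 hs
    obtain ⟨t, h3, t', h4, rfl⟩ := Submodule.mem_sup.1 ht
    rw [add_mul, mul_add s', ← add_assoc]
    exact Submodule.add_mem_sup (add_mem (hK.right h1 _) (hK.left _ h3))
      (pw_add hJ a b ▸ Submodule.mul_mem_mul h2 h4)

/-- `I + A z` -/
def adj (I : Submodule F A) (z : A) : Submodule F A where
  carrier := {s | ∃ t, s - t * z ∈ I}
  add_mem' := fun ⟨t, h⟩ ⟨t', h'⟩ => ⟨t + t', by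
    rw [add_mul, add_sub_add_comm]; exact add_mem h h'⟩
  zero_mem' := ⟨0, by simp⟩
  smul_mem' := fun c _ ⟨t, h⟩ => ⟨c • t, by
    rw [smul_mul_assoc, ← smul_sub]; exact I.smul_mem c h⟩

theorem le_adj : I ≤ adj I z := fun _ h => ⟨0, by simpa using h⟩

theorem mem_adj : z ∈ adj I z := ⟨1, by simp⟩

theorem TS.adj (h : TS I) (hz : ∀ s, ∃ s', z * s - s' * z ∈ I) : TS (adj I z) where
  left := fun s _ ⟨t, e⟩ => ⟨s * t, by rw [mul_assoc, ← mul_sub]; exact h.left s e⟩
  right := fun {r} ⟨t, e⟩ s => (hz s).elim fun s' e' => ⟨t * s', by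
    rw [show r * s - t * s' * z = (r - t * z) * s + t * (z * s - s' * z) by noncomm_ring]
    exact add_mem (h.right e s) (h.left t e')⟩

theorem pw_adj (h : TS I) (hz : ∀ s, ∃ s', z * s - s' * z ∈ I) (j : ℕ) :
    pw (adj I z) j ≤ adj I (z ^ j) := by
  induction j with
  | zero => exact fun s _ => ⟨s, by simp⟩
  | succ j ih =>
    refine Submodule.mul_le.2 fun r ⟨t, e⟩ r' hr' => ?_
    obtain ⟨t', e'⟩ := ih hr'
    obtain ⟨s', e''⟩ := hz t'
    refine ⟨t * s', ?_⟩
    rw [show r * r' - t * s' * z ^ (j + 1) = (r - t * z) * r' + t * z * (r' - t' * z ^ j) +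
      t * ((z * t' - s' * z) * z ^ j) by rw [pow_succ']; noncomm_ring]
    exact add_mem (add_mem (h.right e _) (h.left _ e')) (h.left _ (h.right e'' _))

theorem nil_adj (h : TS I) (hz : ∀ s, ∃ s', z * s - s' * z ∈ I) {k : ℕ} (hk : z ^ k ∈ I)
    (hn : ∃ m, pw I m ≤ K) : ∃ m, pw (adj I z) m ≤ K :=
  hn.elim fun m e => ⟨k * m, (pw_comp (h.adj hz) ((pw_adj h hz k).trans fun s ⟨t, e'⟩ => by
    simpa using add_mem e' (h.left t hk)) m).trans e⟩

theorem TS.mul_sub_one (h : TS J) {a b : A} (ha : a - 1 ∈ J) (hb : b - 1 ∈ J) : a * b - 1 ∈ J := by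
  rw [show a * b - 1 = a * (b - 1) + (a - 1) by noncomm_ring]
  exact add_mem (h.left a hb) ha

theorem TS.pow_sub_one (h : TS J) {a : A} (ha : a - 1 ∈ J) (k : ℕ) : a ^ k - 1 ∈ J := by
  induction k with
  | zero => simp
  | succ k ih => rw [pow_succ]; exact h.mul_sub_one ih ha

theorem MF.ts {Fl : ℕ → Submodule F A} (h : MF Fl) (a : ℕ) : TS (Fl a) :=
  ⟨fun s _ e => h.left s e, fun e s => h.right e s⟩

end Vale.Agent.P221X.GR
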