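import Vale.Agent.P221X.GR.Defs
import Vale.Agent.P221X.GR.Nil

/-!
# P221 / GR : the topology of a model
-/

noncomputable section

namespace Vale.Agent.P221X.GR

open PowerSeries

variable {p : ℕ} {F : Type} [Field F] {D : GD p F} {A : Type} [Ring A] [Algebra F A]

/-- polynomials of degree `< n` -/
def pol (n : ℕ) : (Fin n → F) →ₗ[F] PowerSeries F :=
  Fintype.linearCombination F fun i : Fin n => X ^ (i : ℕ)

theorem coeff_pol {n : ℕ} (v : Fin n → F) (i : Fin n) : coeff i (pol n v) = v i := by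
  simp [pol, Fintype.linearCombination_apply, coeff_X_pow, Fin.val_inj]

theorem dvd_sub_pol (n : ℕ) (f : PowerSeries F) : X ^ n ∣ f - pol n fun i => coeff i f :=
  X_pow_dvd_iff.2 fun m hm => by rw [map_sub, coeff_pol _ ⟨m, hm⟩, sub_self]

theorem act_X (D : GD p F) (a : D.G) : ∃ v, D.act a X = X + X ^ 2 * v :=
  (D.dep_one a).elim fun v e => ⟨v, eq_add_of_sub_eq' e⟩

theorem act_sub (D : GD p F) (a : D.G) (f : PowerSeries F) : X ∣ D.act a f - f := by
  obtain ⟨v, e⟩ := act_X D a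
  obtain ⟨g, e'⟩ := X_dvd_iff.2 (show constantCoeff (f - C (constantCoeff f)) = 0 by simp)
  rw [eq_add_of_sub_eq e', map_add, map_mul, e, show C (constantCoeff f) =
    algebraMap F (PowerSeries F) (constantCoeff f) from rfl, AlgEquiv.commutes]
  exact ⟨(1 + X * v) * D.act a g - g, by ring⟩

namespace IW

variable (W : IW D A)

/-- the kernel of the projection onto `(O / u ^ n)[G / G_l]` -/
def Kr (l n : ℕ) : Submodule F A where
  carrier := {r | Van W.lv l n r}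
  add_mem' := fun h h' i hi c => by rw [map_add, h i hi c, h' i hi c, add_zero]
  zero_mem' := fun _ _ _ => map_zero _
  smul_mem' := fun t _ h i hi c => by rw [map_smul, h i hi c, smul_zero]

theorem Kr_anti {l l' n n' : ℕ} (e : l ≤ l') (e' : n ≤ n') : W.Kr l' n' ≤ W.Kr l n := by
  induction l', e using Nat.le_induction with
  | base => exact fun _ h i hi => h i (hi.trans_le e')
  | succ l' _ ih => exact fun r h => ih (W.van_anti _ _ r h)

theorem Kr_left {l n : ℕ} (s : A) {r : A} (h : r ∈ W.Kr l n) : s * r ∈ W.Kr l n :=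
  W.van_left l n r s h

theorem exists_ts (l n : ℕ) : ∃ m, l ≤ m ∧ TS (W.Kr m n) := by
  obtain ⟨N, h⟩ := D.cont n
  exact ⟨max l N, le_max_left _ _, fun s _ e => W.Kr_left s e, fun e s =>
    W.van_right _ _ _ s (fun a ha => h a (D.Gf_anti (le_max_right _ _) ha)) e⟩

theorem exists_right (n : ℕ) : ∃ m, ∀ r ∈ W.Kr m m, ∀ s, r * s ∈ W.Kr n n := by
  obtain ⟨m, e, h⟩ := W.exists_ts n n
  exact ⟨m, fun r hr s => W.Kr_anti e le_rfl (h.right (W.Kr_anti le_rfl e hr) s)⟩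

theorem sc_mem (l n : ℕ) : W.sc X ^ n ∈ W.Kr l n := fun i hi c => by
  rw [← map_pow, ← mul_one (W.sc _), ← map_one W.gr, W.lv_gen, coeff_X_pow, if_neg hi.ne, ite_self]

theorem gr_mem {l : ℕ} (n : ℕ) {a : D.G} (h : a ∈ D.Gf l) : W.gr a - 1 ∈ W.Kr l n := fun i _ c => by
  have h1 := W.lv_gen l i c 1 a
  have h2 := W.lv_gen l i c 1 1
  rw [map_one, one_mul] at h1 h2
  rw [map_one] at h2
  rw [map_sub, h1, h2, QuotientGroup.eq.2 (show a⁻¹ * 1 ∈ D.Gf l by simpa using h), sub_self]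

/-- the finite sums -/
def fs : (D.G →₀ PowerSeries F) →ₗ[F] A :=
  Finsupp.lsum F fun a => LinearMap.mulRight F (W.gr a) ∘ₗ W.sc.toLinearMap

theorem fs_apply (c : D.G →₀ PowerSeries F) : W.fs c = c.sum fun a f => W.sc f * W.gr a := rfl

theorem fs_single (a : D.G) (f : PowerSeries F) : W.fs (Finsupp.single a f) = W.sc f * W.gr a := by
  simp [fs]

theorem fs_mem {U : Submodule F A} (h : ∀ f a, W.sc f * W.gr a ∈ U) (c) : W.fs c ∈ U :=
  sum_mem fun _ _ => h _ _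

/-- the projection -/
def prj (l n : ℕ) : A →ₗ[F] (D.G ⧸ D.Gf l → Fin n → F) :=
  LinearMap.pi fun c => LinearMap.pi fun i => W.lv l i c

theorem prj_eq_zero {l n : ℕ} {r : A} : W.prj l n r = 0 ↔ r ∈ W.Kr l n :=
  ⟨fun h i hi c => congrFun (congrFun h c) ⟨i, hi⟩, fun h => funext fun c => funext fun i =>
    h i i.2 c⟩

/-- a section of the projection -/
def sec (l n : ℕ) [Fintype (D.G ⧸ D.Gf l)] : (D.G ⧸ D.Gf l → Fin n → F) →ₗ[F] A :=
  ∑ c, LinearMap.mulRight F (W.gr c.out) ∘ₗ W.sc.toLinearMap ∘ₗ pol n ∘ₗ LinearMap.proj c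

theorem sec_apply (l n : ℕ) [Fintype (D.G ⧸ D.Gf l)] (y) :
    W.sec l n y = ∑ c, W.sc (pol n (y c)) * W.gr c.out := by simp [sec]

theorem prj_sec (l n : ℕ) [Fintype (D.G ⧸ D.Gf l)] (y) : W.prj l n (W.sec l n y) = y := by
  ext c i
  have h : ∀ x : D.G ⧸ D.Gf l, ((Quotient.out x : D.G) : D.G ⧸ D.Gf l) = x := QuotientGroup.out_eq'
  change W.lv l i c _ = _
  rw [sec_apply, map_sum, Finset.sum_eq_single c, W.lv_gen, if_pos (h c), coeff_pol]
  · exact fun b _ hb => by rw [W.lv_gen, if_neg ((h b).trans_ne hb)]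
  · simp

theorem dense (hD : RowDEP D) (l n : ℕ) (s : A) : ∃ c, s - W.fs c ∈ W.Kr l n := by
  have := hD.fin l
  have := Fintype.ofFinite (D.G ⧸ D.Gf l)
  obtain ⟨c, e⟩ : W.sec l n (W.prj l n s) ∈ LinearMap.range W.fs := by
    rw [sec_apply]
    exact sum_mem fun c _ => ⟨_, W.fs_single _ _⟩
  exact ⟨c, W.prj_eq_zero.1 (by rw [e, map_sub, prj_sec, sub_self])⟩

theorem mem_of_dense (hD : RowDEP D) {U : Submodule F A} {l n : ℕ} (hK : W.Kr l n ≤ U)
    (h : ∀ f a, W.sc f * W.gr a ∈ U) (s : A) : s ∈ U := by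
  obtain ⟨c, e⟩ := W.dense hD l n s
  simpa using add_mem (hK e) (W.fs_mem h c)

theorem fs_ker (hD : RowDEP D) {J : Submodule F A} (hJ : TS J) {l n : ℕ} (h : W.sc X ^ n ∈ J)
    (h' : ∀ a ∈ D.Gf l, W.gr a - 1 ∈ J) {c} (e : W.fs c ∈ W.Kr l n) : W.fs c ∈ J := by
  classical
  have := hD.fin l
  have := Fintype.ofFinite (D.G ⧸ D.Gf l)
  have key : W.fs c ∈ J.comap (LinearMap.id - W.sec l n ∘ₗ W.prj l n) := W.fs_mem (fun f a => by
    obtain ⟨g, e1⟩ := dvd_sub_pol n f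
    obtain ⟨b, e2⟩ := QuotientGroup.mk_out_eq_mul (D.Gf l) a
    have e3 : W.sec l n (W.prj l n (W.sc f * W.gr a)) =
        W.sc (pol n fun i => coeff i f) * W.gr (a * b) := by
      rw [sec_apply, Finset.sum_eq_single (a : D.G ⧸ D.Gf l), e2]
      · congr 3
        ext i
        simp [prj, W.lv_gen]
      · intro c _ hc
        rw [show W.prj l n (W.sc f * W.gr a) c = 0 from funext fun i => by
          simp [prj, W.lv_gen, hc.symm], map_zero, map_zero, zero_mul]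
      · simp
    change W.sc f * W.gr a - W.sec l n (W.prj l n (W.sc f * W.gr a)) ∈ J
    rw [e3, show W.sc f * W.gr a - W.sc (pol n fun i => coeff i f) * W.gr (a * b) =
      W.sc (f - pol n fun i => coeff i f) * W.gr a -
        W.sc (pol n fun i => coeff i f) * W.gr a * (W.gr b - 1) by
      rw [map_sub, map_mul]; noncomm_ring, e1, map_mul, map_pow]
    exact sub_mem (hJ.right (hJ.right h _) _) (hJ.left _ (h' b b.2))) c
  simpa [W.prj_eq_zero.2 e] using key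

theorem u_mul (f : PowerSeries F) (a : D.G) : ∃ t, W.sc X * (W.sc f * W.gr a) = t * W.sc X := by
  obtain ⟨v, e⟩ := act_X D a⁻¹
  refine ⟨W.sc f * W.gr a * W.sc (1 + X * v), ?_⟩
  rw [mul_assoc, ← map_mul, show (1 + X * v) * X = D.act a⁻¹ X by rw [e]; ring, mul_assoc, W.skew,
    ← AlgEquiv.mul_apply, ← map_mul, mul_inv_cancel, map_one, AlgEquiv.one_apply, ← mul_assoc,
    ← mul_assoc, ← map_mul, ← map_mul, mul_comm]

theorem mul_u (f : PowerSeries F) (a : D.G) : ∃ t, W.sc f * W.gr a * W.sc X = W.sc X * t := by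
  obtain ⟨v, e⟩ := act_X D a
  refine ⟨W.sc (f * (1 + X * v)) * W.gr a, ?_⟩
  rw [mul_assoc, W.skew, e, ← mul_assoc, ← mul_assoc, ← map_mul, ← map_mul]
  congr 2
  ring

theorem gr_comm (a b : D.G) : W.gr a * W.gr b - W.gr b * W.gr a =
    (W.gr (a * b * a⁻¹ * b⁻¹) - 1) * W.gr (b * a) := by
  rw [sub_mul, one_mul, ← map_mul, ← map_mul, ← map_mul]
  congr 2
  group

/-- the maximal ideal is nilpotent modulo the kernels -/
theorem nil (hD : RowDEP D) (hp : ∀ a : D.G, W.gr (a ^ p) - 1 = (W.gr a - 1) ^ p)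
    (hg : ∀ i, ∃ c d : D.G, c ∈ D.Gf (i + 1) ∧ d ∈ D.Gf (i + 1) ∧ ∀ a ∈ D.Gf (i + 1),
      ∃ x y : ℕ, (c ^ x * d ^ y)⁻¹ * a ∈ D.Gf (i + 2)) {l n : ℕ} (hK : TS (W.Kr l n)) :
    ∃ J, TS J ∧ W.sc X ∈ J ∧ (∀ a, W.gr a - 1 ∈ J) ∧ ∃ k, pw J k ≤ W.Kr l n := by
  have step : ∀ i (c : D.G), c ∈ D.Gf (i + 1) → ∀ J, TS J → W.Kr l n ≤ J → W.sc X ∈ J →
      (∀ a ∈ D.Gf (i + 2), W.gr a - 1 ∈ J) → (∃ k, pw J k ≤ W.Kr l n) →
      TS (adj J (W.gr c - 1)) ∧ ∃ k, pw (adj J (W.gr c - 1)) k ≤ W.Kr l n := by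
    intro i c hc J h1 h2 h3 h4 h5
    have hz : ∀ s, ∃ s', (W.gr c - 1) * s - s' * (W.gr c - 1) ∈ J := fun s => ⟨s, by
      refine W.mem_of_dense hD (U := J.comap (LinearMap.mulLeft F _ - LinearMap.mulRight F _))
        (fun r hr => sub_mem (h1.left _ (h2 hr)) (h1.right (h2 hr) _)) (fun f a => ?_) s
      obtain ⟨g, e⟩ := act_sub D c f
      change (W.gr c - 1) * _ - _ * (W.gr c - 1) ∈ J
      rw [show (W.gr c - 1) * (W.sc f * W.gr a) - W.sc f * W.gr a * (W.gr c - 1) =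
        (W.gr c * W.sc f - W.sc f * W.gr c) * W.gr a +
          W.sc f * (W.gr c * W.gr a - W.gr a * W.gr c) by noncomm_ring, W.skew, ← sub_mul,
        ← map_sub, e, map_mul, gr_comm]
      exact add_mem (h1.right (h1.right (h1.right h3 _) _) _)
        (h1.left _ (h1.right (h4 _ (D.Gf_comm (i := i + 1) (j := 1) hc (D.Gf_one a))) _))⟩
    exact ⟨h1.adj hz, nil_adj h1 hz (k := p)
      (hp c ▸ h4 _ (D.Gf_anti (by omega) (D.Gf_pow (by omega) hc))) h5⟩
  have key : ∀ k i, l ≤ i + k → ∃ J, TS J ∧ W.Kr l n ≤ J ∧ W.sc X ∈ J ∧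
      (∀ a ∈ D.Gf (i + 1), W.gr a - 1 ∈ J) ∧ ∃ k, pw J k ≤ W.Kr l n := fun k => by
    induction k with
    | zero =>
      intro i hi
      have hz : ∀ s, ∃ s', W.sc X * s - s' * W.sc X ∈ W.Kr l n := fun s =>
        W.mem_of_dense hD (U := (adj (W.Kr l n) (W.sc X)).comap (LinearMap.mulLeft F (W.sc X)))
          (fun r hr => le_adj (hK.left _ hr)) (fun f a => (W.u_mul f a).elim fun t e =>
            ⟨t, by rw [LinearMap.mulLeft_apply, e, sub_self]; exact zero_mem _⟩) s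
      exact ⟨_, hK.adj hz, le_adj, mem_adj,
        fun a ha => le_adj (W.gr_mem n (D.Gf_anti (by omega) ha)),
        nil_adj hK hz (W.sc_mem l n) ⟨1, (pw_one hK).le⟩⟩
    | succ k ih =>
      intro i hi
      obtain ⟨J, h1, h2, h3, h4, h5⟩ := ih (i + 1) (by omega)
      obtain ⟨c, d, hc, hd, e⟩ := hg i
      obtain ⟨h6, h7⟩ := step i c hc J h1 h2 h3 h4 h5
      obtain ⟨h8, h9⟩ := step i d hd _ h6 (h2.trans le_adj) (le_adj h3)
        (fun a ha => le_adj (h4 a ha)) h7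
      refine ⟨_, h8, (h2.trans le_adj).trans le_adj, le_adj (le_adj h3), fun a ha => ?_, h9⟩
      obtain ⟨x, y, e'⟩ := e a ha
      rw [← mul_inv_cancel_left (c ^ x * d ^ y) a, map_mul, map_mul, map_pow, map_pow]
      exact h8.mul_sub_one (h8.mul_sub_one (h8.pow_sub_one (le_adj mem_adj) x)
        (h8.pow_sub_one mem_adj y)) (le_adj (le_adj (h4 _ e')))
  obtain ⟨J, h1, -, h3, h4, h5⟩ := key l 0 (by omega)
  exact ⟨J, h1, h3, fun a => h4 a (D.Gf_one a), h5⟩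

end IW

end Vale.Agent.P221X.GR
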