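import Mathlib

/-!
# P221 / GR : filtered algebras with generators that commute up to higher filtration
-/

noncomputable section

namespace Vale.Agent.P221X.GR

open MvPolynomial

variable {F R σ : Type} [Field F] [Ring R] [Algebra F R]

/-- a multiplicative filtration -/
structure MF (Fl : ℕ → Submodule F R) : Prop where
  top : ∀ s, s ∈ Fl 0
  anti : Antitone Fl
  mul : ∀ {a b s t}, s ∈ Fl a → t ∈ Fl b → s * t ∈ Fl (a + b)

/-- generators with weights which commute up to higher filtration -/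
structure Gens (Fl : ℕ → Submodule F R) (x : σ → R) (w : σ → ℕ) : Prop extends MF Fl where
  mem : ∀ i, x i ∈ Fl (w i)
  comm : ∀ i j, x i * x j - x j * x i ∈ Fl (w i + w j + 1)

variable {Fl : ℕ → Submodule F R} {x : σ → R} {w : σ → ℕ}

theorem MF.mul_le (h : MF Fl) {a b c : ℕ} {s t : R} (hs : s ∈ Fl a) (ht : t ∈ Fl b)
    (hc : c ≤ a + b) : s * t ∈ Fl c := h.anti hc (h.mul hs ht)

theorem MF.left (h : MF Fl) {a : ℕ} (s : R) {t : R} (ht : t ∈ Fl a) : s * t ∈ Fl a :=
  h.mul_le (h.top s) ht (zero_add a).ge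

theorem MF.right (h : MF Fl) {a : ℕ} {s : R} (hs : s ∈ Fl a) (t : R) : s * t ∈ Fl a :=
  h.mul hs (h.top t)

theorem MF.pow (h : MF Fl) {a : ℕ} {s : R} (hs : s ∈ Fl a) (k : ℕ) : s ^ k ∈ Fl (k * a) := by
  induction k with
  | zero => simpa using h.top 1
  | succ k ih => rw [pow_succ, Nat.succ_mul]; exact h.mul ih hs

/-- congruences can be multiplied -/
theorem MF.mul_sub (h : MF Fl) {a b : ℕ} {s s' t t' : R} (hs : s ∈ Fl a) (ht' : t' ∈ Fl b)
    (e : s - s' ∈ Fl (a + 1)) (e' : t - t' ∈ Fl (b + 1)) : s * t - s' * t' ∈ Fl (a + b + 1) := by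
  rw [show s * t - s' * t' = s * (t - t') + (s - s') * t' by noncomm_ring]
  exact add_mem (h.mul_le hs e' (by omega)) (h.mul_le e ht' (by omega))

theorem Gens.word_mem (h : Gens Fl x w) (l : List σ) : (l.map x).prod ∈ Fl (l.map w).sum := by
  induction l with
  | nil => exact h.top _
  | cons i l ih => exact h.mul (h.mem i) ih

theorem Gens.word_perm (h : Gens Fl x w) {l l' : List σ} (e : l.Perm l') :
    (l.map x).prod - (l'.map x).prod ∈ Fl ((l.map w).sum + 1) := by
  induction e with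
  | nil => simp
  | cons i _ ih =>
    simp only [List.map_cons, List.prod_cons, List.sum_cons, ← mul_sub, add_assoc]
    exact h.mul (h.mem i) ih
  | swap i j l =>
    simp only [List.map_cons, List.prod_cons, List.sum_cons, ← mul_assoc, ← sub_mul]
    exact h.toMF.mul_le (h.comm j i) (h.word_mem l) (by omega)
  | trans e _ ih ih' =>
    rw [← sub_add_sub_cancel]
    exact add_mem ih ((e.map w).sum_eq ▸ ih')

/-- a list with given multiplicities -/
def lst (n : σ →₀ ℕ) : List σ := n.toMultiset.toList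

/-- the ordered monomials -/
def mon (x : σ → R) (n : σ →₀ ℕ) : R := ((lst n).map x).prod

theorem lst_add (n n' : σ →₀ ℕ) : (lst (n + n')).Perm (lst n ++ lst n') := by
  rw [← Multiset.coe_eq_coe, ← Multiset.coe_add, lst, lst, lst, Multiset.coe_toList,
    Multiset.coe_toList, Multiset.coe_toList, map_add]

theorem lst_single (i : σ) (k : ℕ) : lst (Finsupp.single i k) = List.replicate k i := by
  rw [← List.perm_replicate, ← Multiset.coe_eq_coe, lst, Multiset.coe_toList,
    Finsupp.toMultiset_single, Multiset.nsmul_singleton, Multiset.coe_replicate]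

theorem sum_lst (w : σ → ℕ) (n : σ →₀ ℕ) : ((lst n).map w).sum = Finsupp.weight w n := by
  induction n using Finsupp.induction_linear with
  | zero => simp [lst]
  | add n n' ih ih' => rw [((lst_add n n').map w).sum_eq, List.map_append, List.sum_append, ih, ih',
      map_add]
  | single i k => simp [lst_single, Finsupp.weight_single]

theorem mon_single (x : σ → R) (i : σ) (k : ℕ) : mon x (Finsupp.single i k) = x i ^ k := by
  simp [mon, lst_single]

theorem mon_zero (x : σ → R) : mon x 0 = 1 := by simp [mon, lst]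

theorem Gens.mon_mem (h : Gens Fl x w) (n : σ →₀ ℕ) : mon x n ∈ Fl (Finsupp.weight w n) :=
  sum_lst w n ▸ h.word_mem _

theorem Gens.mon_add (h : Gens Fl x w) (n n' : σ →₀ ℕ) :
    mon x (n + n') - mon x n * mon x n' ∈ Fl (Finsupp.weight w (n + n') + 1) := by
  have := h.word_perm (lst_add n n')
  rwa [List.map_append, List.prod_append, sum_lst] at this

/-- the linear map given by the ordered monomials -/
def ev (x : σ → R) : MvPolynomial σ F →ₗ[F] R := (basisMonomials σ F).constr F (mon x)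

theorem ev_monomial (x : σ → R) (n : σ →₀ ℕ) (c : F) : ev x (monomial n c) = c • mon x n := by
  rw [show monomial n c = c • basisMonomials σ F n by simp [smul_monomial], map_smul, ev,
    Module.Basis.constr_basis]

theorem ev_X_pow (x : σ → R) (i : σ) (k : ℕ) : ev x (X i ^ k : MvPolynomial σ F) = x i ^ k := by
  rw [X_pow_eq_monomial, ev_monomial, one_smul, mon_single]

theorem ev_C (x : σ → R) (c : F) : ev x (C c) = algebraMap F R c := by
  rw [C_apply, ev_monomial, mon_zero, Algebra.algebraMap_eq_smul_one]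

theorem ev_mem {U : Submodule F R} {φ : MvPolynomial σ F} (h : ∀ n, coeff n φ ≠ 0 → mon x n ∈ U) :
    ev x φ ∈ U := by
  rw [φ.as_sum, map_sum]
  exact sum_mem fun n hn => by
    rw [ev_monomial]
    exact U.smul_mem _ (h n (mem_support_iff.1 hn))

theorem Gens.ev_mem (h : Gens Fl x w) {a : ℕ} {φ : MvPolynomial σ F}
    (hφ : IsWeightedHomogeneous w φ a) : ev x φ ∈ Fl a :=
  GR.ev_mem fun n hn => hφ hn ▸ h.mon_mem n

theorem Gens.ev_mul (h : Gens Fl x w) {a b : ℕ} {φ ψ : MvPolynomial σ F}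
    (hφ : IsWeightedHomogeneous w φ a) (hψ : IsWeightedHomogeneous w ψ b) :
    ev x φ * ev x ψ - ev x (φ * ψ) ∈ Fl (a + b + 1) := by
  rw [φ.as_sum, ψ.as_sum, Finset.sum_mul_sum]
  simp only [map_sum, Finset.sum_mul_sum, ← Finset.sum_sub_distrib]
  refine sum_mem fun n hn => sum_mem fun n' hn' => ?_
  rw [monomial_mul, ev_monomial, ev_monomial, ev_monomial, smul_mul_smul_comm, ← smul_sub,
    ← neg_sub, ← hφ (mem_support_iff.1 hn), ← hψ (mem_support_iff.1 hn'), ← map_add]
  exact Submodule.smul_mem _ _ (neg_mem (h.mon_add n n'))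

/-- `φ` is a symbol of `s` in the weight `a` -/
def Sym (Fl : ℕ → Submodule F R) (x : σ → R) (w : σ → ℕ) (a : ℕ) (s : R) (φ : MvPolynomial σ F) :
    Prop := IsWeightedHomogeneous w φ a ∧ s - ev x φ ∈ Fl (a + 1)

variable {a b : ℕ} {s t : R} {φ ψ : MvPolynomial σ F}

theorem Sym.mem (h : Gens Fl x w) (e : Sym Fl x w a s φ) : s ∈ Fl a := by
  simpa using add_mem (h.anti (Nat.le_succ a) e.2) (h.ev_mem e.1)

theorem Sym.zero (e : s ∈ Fl (a + 1)) : Sym Fl x w a s 0 :=
  ⟨isWeightedHomogeneous_zero _ _ _, by simpa using e⟩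

theorem Sym.add (e : Sym Fl x w a s φ) (e' : Sym Fl x w a t ψ) : Sym Fl x w a (s + t) (φ + ψ) :=
  ⟨e.1.add e'.1, by rw [map_add, add_sub_add_comm]; exact add_mem e.2 e'.2⟩

theorem Sym.smul (c : F) (e : Sym Fl x w a s φ) : Sym Fl x w a (c • s) (c • φ) :=
  ⟨(weightedHomogeneousSubmodule F w a).smul_mem c e.1, by
    rw [map_smul, ← smul_sub]; exact Submodule.smul_mem _ c e.2⟩

theorem Sym.sub (e : Sym Fl x w a s φ) (e' : Sym Fl x w a t ψ) : Sym Fl x w a (s - t) (φ - ψ) := by
  simpa [sub_eq_add_neg] using e.add (e'.smul (-1))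

theorem Sym.mul (h : Gens Fl x w) (e : Sym Fl x w a s φ) (e' : Sym Fl x w b t ψ) :
    Sym Fl x w (a + b) (s * t) (φ * ψ) :=
  ⟨e.1.mul e'.1, by
    rw [← sub_add_sub_cancel _ (ev x φ * ev x ψ)]
    exact add_mem (h.toMF.mul_sub (e.mem h) (h.ev_mem e'.1) e.2 e'.2) (h.ev_mul e.1 e'.1)⟩

theorem Sym.ev (hφ : IsWeightedHomogeneous w φ a) : Sym Fl x w a (ev x φ) φ :=
  ⟨hφ, by simp⟩

theorem Sym.pow (i : σ) (k : ℕ) : Sym Fl x w (k * w i) (x i ^ k) (X i ^ k) :=
  ev_X_pow (F := F) x i k ▸ Sym.ev (by simpa using (isWeightedHomogeneous_X F w i).pow k)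

theorem Sym.X (i : σ) : Sym Fl x w (w i) (x i) (X i) := by simpa using Sym.pow (Fl := Fl) i 1

theorem Sym.C (c : F) : Sym Fl x w 0 (algebraMap F R c) (C c) :=
  ev_C x c ▸ Sym.ev (isWeightedHomogeneous_C _ _)

/-- Every element of the filtration is a polynomial in the generators up to any given order. -/
theorem approx (h : ∀ a s, s ∈ Fl a → ∃ φ, Sym Fl x w a s φ) (hs : s ∈ Fl a) (k : ℕ) :
    ∃ φ : MvPolynomial σ F, (∀ n, coeff n φ ≠ 0 → a ≤ Finsupp.weight w n) ∧
      s - ev x φ ∈ Fl (a + k) := by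
  induction k with
  | zero => exact ⟨0, by simp, by simpa using hs⟩
  | succ k ih =>
    obtain ⟨φ, h1, h2⟩ := ih
    obtain ⟨ψ, h3, h4⟩ := h _ _ h2
    refine ⟨φ + ψ, fun n hn => ?_, by rwa [map_add, ← sub_sub]⟩
    by_cases c : coeff n ψ = 0
    · exact h1 n (by simpa [c] using hn)
    · exact (Nat.le_add_right a k).trans (h3 c).ge

/-- **Counting.**  Let `π` be a linear map onto a space of dimension `∏ bd i` which kills a step of the
filtration and, up to higher filtration, the monomials that are divisible by some `x i ^ bd i`.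
Then the symbols with exponents less than `bd` are unique. -/
theorem indep [Fintype σ] {Q : Type} [AddCommGroup Q] [Module F Q] (π : R →ₗ[F] Q)
    (hπ : Function.Surjective π) (bd : σ → ℕ) (hd : Module.finrank F Q = ∏ i, bd i)
    (hp : ∀ i, 0 < bd i) (htop : ∀ s, s ∈ Fl 0)
    (h : ∀ a s, s ∈ Fl a → ∃ φ, Sym Fl x w a s φ) {W : ℕ} (hW : ∀ a ≥ W, ∀ s ∈ Fl a, π s = 0)
    (hk : ∀ n : σ →₀ ℕ, (∃ i, bd i ≤ n i) →
      ∃ s, π s = 0 ∧ mon x n - s ∈ Fl (Finsupp.weight w n + 1))
    (hφ : IsWeightedHomogeneous w φ a) (hb : ∀ n, coeff n φ ≠ 0 → ∀ i, n i < bd i)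
    (e : ev x φ ∈ Fl (a + 1)) : φ = 0 := by
  classical
  let ex : (∀ i, Fin (bd i)) → σ →₀ ℕ := fun j => Finsupp.equivFunOnFinite.symm fun i => j i
  let v : (∀ i, Fin (bd i)) → Q := fun j => π (mon x (ex j))
  have hex : ∀ n : σ →₀ ℕ, (∀ i, n i < bd i) → ∃ j, ex j = n := fun n hn =>
    ⟨fun i => ⟨n i, hn i⟩, Finsupp.ext fun _ => rfl⟩
  have hinj : Function.Injective ex := fun j j' c => funext fun i =>
    Fin.ext (DFunLike.congr_fun c i)
  have key : ∀ k a, W ≤ a + k → ∀ s ∈ Fl a,
      π s ∈ Submodule.span F (v '' {j | a ≤ Finsupp.weight w (ex j)}) := fun k => by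
    induction k with
    | zero => exact fun a ha s hs => hW a ha s hs ▸ zero_mem _
    | succ k ih =>
      intro a ha s hs
      have ih' : ∀ s ∈ Fl (a + 1), π s ∈ Submodule.span F (v '' {j | a ≤ Finsupp.weight w (ex j)}) :=
        fun s hs => Submodule.span_mono (Set.image_mono fun j hj => Nat.le_of_succ_le hj)
          (ih (a + 1) (by omega) s hs)
      obtain ⟨ψ, h1, h2⟩ := h a s hs
      rw [← sub_add_cancel s (ev x ψ), map_add]
      refine add_mem (ih' _ h2) (Submodule.mem_comap.1 (ev_mem fun n hn => ?_))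
      rw [Submodule.mem_comap]
      by_cases c : ∀ i, n i < bd i
      · obtain ⟨j, rfl⟩ := hex n c
        exact Submodule.subset_span ⟨j, (h1 hn).ge, rfl⟩
      · obtain ⟨t, h3, h4⟩ := hk n (by simpa using c)
        rw [← sub_zero (π _), ← h3, ← map_sub]
        exact ih' _ (h1 hn ▸ h4)
  have : ∀ i, Nonempty (Fin (bd i)) := fun i => ⟨⟨0, hp i⟩⟩
  have hli : LinearIndependent F v := by
    refine linearIndependent_of_top_le_span_of_card_eq_finrank (fun q _ => ?_) (by simp [hd])
    obtain ⟨s, rfl⟩ := hπ q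
    exact Submodule.span_mono (Set.image_subset_range _ _) (key W 0 (by omega) s (htop s))
  ext n
  by_contra c
  obtain ⟨j, rfl⟩ := hex n (hb n c)
  have h1 : π (ev x (φ - monomial (ex j) (coeff (ex j) φ))) ∈ Submodule.span F (v '' {j}ᶜ) := by
    refine Submodule.mem_comap.1 (ev_mem fun n hn => ?_)
    have h2 : ex j ≠ n := fun e => hn (by simp [← e])
    obtain ⟨j', rfl⟩ := hex n (hb n (by simpa [h2] using hn))
    exact Submodule.subset_span ⟨j', fun e => h2 (e ▸ rfl), rfl⟩
  have h2 : π (ev x φ) ∈ Submodule.span F (v '' {j}ᶜ) :=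
    Submodule.span_mono (Set.image_mono fun j' hj e => by
      have h3 := hφ c
      rw [Set.mem_singleton_iff.1 e, Set.mem_ofPred_eq] at hj
      omega) (key W (a + 1) (by omega) _ e)
  have h3 := sub_mem h2 h1
  rw [← map_sub, ← map_sub, sub_sub_cancel, ev_monomial, map_smul,
    Submodule.smul_mem_iff _ c] at h3
  exact hli.notMem_span_image (s := {j}ᶜ) (by simp) h3

end Vale.Agent.P221X.GR
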